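import Vale.Agent.P144DC.En

/-!
The energies of the critical model as a mixture of Pfaffians with local kernels.
-/

namespace Vale.Agent.P144DV

open Finset Vale.Agent.P144 Vale.Agent.P144P Vale.Agent.P144DC
open Vale.Agent.P144.H170 (Pt bx mem_bx)
open Vale.Agent.P144.AL (cnr mem_cnr Pf cenK Lb eLo eHi)
open Vale.Agent.P144Z (zd)
open Vale.Agent.P144S (ce MM)
open Vale.Agent.P144S.F (lb sj wl cl ce_cnr sj_sq)

theorem gg_pair {S S' : Site → Prop} {R : Multiset Site} {i i' : ℤ}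
    (h : ∀ f ∈ R, (S f ↔ S' f) ∨ (i ≤ f.1 ↔ i' ≤ f.1)) :
    gg S R i * gg S R i' = gg S' R i * gg S' R i' := by
  unfold gg
  rw [← Multiset.prod_map_mul, ← Multiset.prod_map_mul]
  refine congrArg _ (Multiset.map_congr rfl fun f hf => ?_)
  have := h f hf
  by_cases a : S f <;> by_cases a' : S' f <;> by_cases c : i ≤ f.1 <;> by_cases c' : i' ≤ f.1 <;>
    simp only [a, a', c, c'] at this ⊢ <;> simp at this ⊢

/-- The entries near the diagonal, in a gauge. -/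
theorem ker2 : ∃ (C : ℝ) (τ : AL.Cn → AL.Cn → ℝ), 0 ≤ C ∧ ∀ Λ R G, KS Λ R G → ∀ (c y : AL.Cn)
    (p : Site) (d : ℕ), c.1 ∈ cnr c.2 → y.1 ∈ cnr y.2 → zd y.2 p ≤ 1 → 400 ≤ d →
    (∀ v, zd v p ≤ d → v ∈ Λ) → 200 * zd c.2 p ≤ d →
      |gg (fun f => f.2 ≤ p.2) R y.1.1 * gg (fun f => f.2 ≤ p.2) R c.1.1 * G c y - τ c y| ≤
        C / d := by
  obtain ⟨K, Q, κ, K0, hQ⟩ := exists_Q
  refine ⟨10 ^ 22 * √K, fun c y => val (Q (y.1 - y.2)) (c.1 - y.2, c.2 - y.2), by positivity,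
    fun Λ R G h c y p d hc hy yp hd hp cp => ?_⟩
  have i1 : ∀ {x : Site}, zd x p + 2 ≤ d → x ∈ inn Λ := fun b v hv => hp v (by
    rw [mem_bx] at hv
    unfold zd at b ⊢
    omega)
  obtain ⟨X, U, W, hs, hG⟩ := h y hy (i1 (by omega))
  have y0 : y.1 - y.2 ∈ cnr 0 := by
    rw [mem_cnr] at hy ⊢
    simp only [Prod.ext_iff, Prod.fst_sub, Prod.snd_sub, Prod.fst_zero, Prod.snd_zero] at hy ⊢
    omega
  have hn : 4 ≤ d / 100 := by omega
  obtain ⟨m1, -⟩ := hs.main hn (fun x hx => i1 (by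
    rw [mem_bx] at hx
    unfold zd at yp ⊢
    omega)) (hQ _ y0).1 K0 (fun x hx => (hQ _ y0).2 _ x (by omega) hx) hc
  have d0 : (0 : ℝ) < d := by exact_mod_cast (by omega)
  have n0 : (0 : ℝ) < (d / 100 : ℕ) := by exact_mod_cast (by omega)
  have dn : (d : ℝ) ≤ 200 * (d / 100 : ℕ) := by exact_mod_cast (by omega)
  have k2 : (10 ^ 22 * √K) ^ 2 = 10 ^ 44 * K := by rw [mul_pow, Real.sq_sqrt K0]; norm_num
  have := m1 (by rw [mem_bx]; unfold zd at cp yp; omega)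
  rw [← mul_assoc, ga, ga, gg_pair (S' := fun f => f.2 ≤ p.2) fun f hf => ?_,
    ← hG c hc (i1 (by omega))] at this
  · refine abs_le_of_sq_le_sq (this.trans ?_) (by positivity)
    rw [div_pow, k2, div_le_div_iff₀ (by positivity) (by positivity)]
    have := mul_le_mul_of_nonneg_left (pow_le_pow_left₀ d0.le dn 2) K0
    nlinarith [mul_nonneg K0 (sq_nonneg ((d / 100 : ℕ) : ℝ))]
  · have a0 : d < zd f p + 2 := not_le.1 fun c => hs.out f hf (i1 c)
    have a1 : ∀ {c : AL.Cn}, c.1 ∈ cnr c.2 → c.2.1 ≤ c.1.1 ∧ c.1.1 ≤ c.2.1 + 1 := fun hc => by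
      rw [mem_cnr] at hc
      simp only [Prod.ext_iff] at hc
      omega
    have a2 := a1 hc
    have a3 := a1 hy
    unfold zd at a0 cp yp
    clear this y0 hc hy
    by_cases a4 : (f.2 - p.2).natAbs ≤ 1
    · exact Or.inr (by omega)
    · exact Or.inl (by omega)

/-- The labels of the fermions. -/
abbrev Lab : Type := Site × Fin 2 × Bool

/-- The kernel of one sector. -/
structure Sec (C : ℝ) (τ : Lab → Lab → ℝ) (Λ : Finset Site) {m : ℕ} (y : Fin m → Site)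
    (j : Fin m → Fin 2) (K : Fin m × Bool → Fin m × Bool → ℝ) : Prop where
  far : ∀ (x x' : Fin m × Bool) (d : ℕ), 400 ≤ d → (∀ v, zd v (y x.1) ≤ d → v ∈ Λ) →
    (∀ v, zd v (y x'.1) ≤ d → v ∈ Λ) → d ≤ zd (y x.1) (y x'.1) → |K x x'| ≤ C / d
  near : ∀ (l : Fin m) (d : ℕ), 400 ≤ d → (∀ v, zd v (y l) ≤ d → v ∈ Λ) → ∃ γ : Fin m → ℝ,
    (∀ k, γ k * γ k = 1) ∧ ∀ (x : Fin m × Bool) (b : Bool), 200 * (zd (y x.1) (y l) + 1) ≤ d →
      |γ l * γ x.1 * K x (l, b) - τ (y x.1, j x.1, x.2) (y l, j l, b)| ≤ C / d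

/-- The state is a mixture of sectors. -/
def Mix (J : ℝ) (b : Option Config) : Prop :=
  ∃ (C : ℝ) (τ : Lab → Lab → ℝ), 0 ≤ C ∧ ∀ (m : ℕ) (y : Fin m → Site) (j : Fin m → Fin 2)
    (Λ : Finset Site), (∀ k l, k ≠ l → 400 ≤ zd (y k) (y l)) → (∀ k v, zd v (y k) ≤ 1 → v ∈ Λ) →
    ∃ (s : Finset (Finset Site)) (w : Finset Site → ℝ)
      (K : Finset Site → Fin m × Bool → Fin m × Bool → ℝ), (∀ S, 0 ≤ w S) ∧ ∑ S ∈ s, w S = 1 ∧
      (∀ S ∈ s, Sec C τ Λ y j (K S)) ∧ ∀ ks : List (Fin m), ks.Nodup → ∀ u : Fin m → ℝ,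
        gb J b Λ (fun σ => (ks.map fun k => en (y k) (j k) σ - u k).prod) = ∑ S ∈ s, w S *
          Pf (cenK (K S) (fun k => (k, false)) (fun k => (k, true)) u ks) (lb ks)

theorem sec_ex : ∃ (C : ℝ) (τ : AL.Cn → AL.Cn → ℝ), 0 ≤ C ∧ ∀ Λ R G, KS Λ R G →
    ∀ (cn : Lab → AL.Cn) (w : Lab → ℝ), (∀ x, (cn x).1 ∈ cnr (cn x).2 ∧ zd (cn x).2 x.1 ≤ 1 ∧
      |w x| = 1) → (R = 0 ∨ ∀ v j b, (cn (v, j, b)).1 = (cn (v, j, true)).1) →
      ∀ {m : ℕ} (y : Fin m → Site) (j : Fin m → Fin 2),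
        Sec C (fun x x' => w x * w x' * τ (cn x) (cn x')) Λ y j fun x x' =>
          w (y x.1, j x.1, x.2) * w (y x'.1, j x'.1, x'.2) *
            G (cn (y x.1, j x.1, x.2)) (cn (y x'.1, j x'.1, x'.2)) := by
  obtain ⟨C, τ, hC, h⟩ := ker
  obtain ⟨C', τ', hC', h'⟩ := ker2
  refine ⟨C + C', τ', by linarith, fun Λ R G k cn w hc hR m y j => ⟨fun x x' d h1 h2 h3 h4 => ?_,
    fun l d h1 h2 => ⟨fun k => gg (fun f => f.2 ≤ (y l).2) R (cn (y k, j k, true)).1.1,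
      fun _ => gg_sq _ _ _, fun x b h3 => ?_⟩⟩⟩
  · have := (h Λ R G k _ _ (y x'.1) d (hc (y x.1, j x.1, x.2)).1 (hc (y x'.1, j x'.1, x'.2)).1
      (hc _).2.1 h1 h3).2 (y x.1) d (hc _).2.1 h1 h2 h4 h4
    rw [abs_mul, abs_mul, (hc _).2.2, (hc _).2.2, one_mul, one_mul]
    refine (abs_le_of_sq_le_sq (this.trans_eq (by rw [← sq, div_pow])) (by positivity)).trans ?_
    exact div_le_div_of_nonneg_right (by linarith) (Nat.cast_nonneg _)
  · have := h' Λ R G k _ _ (y l) d (hc (y x.1, j x.1, x.2)).1 (hc (y l, j l, b)).1 (hc _).2.1 h1 h2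
      (by
        have := (hc (y x.1, j x.1, x.2)).2.1
        simp only [zd] at this h3 ⊢
        omega)
    have e : ∀ k b, gg (fun f => f.2 ≤ (y l).2) R (cn (y k, j k, b)).1.1 =
        gg (fun f => f.2 ≤ (y l).2) R (cn (y k, j k, true)).1.1 := fun k b => by
      rcases hR with rfl | e
      · simp [gg]
      · rw [e]
    rw [e l b, e x.1 x.2] at this
    rw [mul_left_comm, ← mul_sub, abs_mul, abs_mul, (hc _).2.2, (hc _).2.2, one_mul, one_mul]
    exact this.trans (div_le_div_of_nonneg_right (by linarith) (Nat.cast_nonneg _))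

variable {J : ℝ} (hJ : 0 < J)

include hJ

theorem mix_plus : Mix J (some fun _ => true) := by
  obtain ⟨C, τ, hC, h⟩ := sec_ex
  refine ⟨C, fun x x' => (if x.2.2 then sj x.2.1 else 1) * (if x'.2.2 then sj x'.2.1 else 1) *
    τ (ce x.1 x.2.1 x.2.2) (ce x'.1 x'.2.1 x'.2.2), hC, fun m y j P h2 h1 => ?_⟩
  obtain ⟨T, t1, t2⟩ := reps P
  have Z : 0 < ∑ S ∈ T.powerset, MM P (S.val.map id) :=
    sum_pos (fun _ _ => P144S.W.MM_pos _ _) ⟨∅, by simp⟩
  refine ⟨T.powerset, fun S => MM P (S.val.map id) / ∑ S ∈ T.powerset, MM P (S.val.map id),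
    fun S => P144S.F.KK P (S.val.map id) y j, fun S => div_nonneg (P144S.W.MM_pos _ _).le Z.le,
    by rw [← sum_div, div_self Z.ne'], fun S hS => ?_, fun ks hk u => ?_⟩
  · refine h P _ _ (ks_plus (R := S.val.map id) fun f hf => ?_) (fun x => ce x.1 x.2.1 x.2.2)
      (fun x => if x.2.2 then sj x.2.1 else 1) (fun x => ⟨ce_cnr _ _ _, ?_, ?_⟩)
      (Or.inr fun _ _ _ => rfl) y j
    · obtain ⟨x, a, rfl⟩ := Multiset.mem_map.1 hf
      exact t1 x (mem_powerset.1 hS a)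
    · unfold ce
      split_ifs
      exacts [(zd_dir _ _).le, (zd_self _).trans_le zero_le_one]
    · unfold sj
      split_ifs <;> simp
  · have e := P144Y.F.mixed (v := y) (j := j) (P := P) (fun k l a e => by
      have := zd_dir (y k) (j k)
      have := zd_dir (y l) (j l)
      have := h2 k l a
      rw [← e] at *
      unfold zd at *
      omega) (fun k => h1 k _ (zd_dir _ _).le) hJ t1 t2 0 hk u
    simp only [Multiset.map_zero, Multiset.prod_zero, one_mul, zero_add] at e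
    refine e.trans ?_
    rw [sum_div]
    exact sum_congr rfl fun S _ => mul_div_right_comm _ _ _

theorem mix_free : Mix J none := by
  obtain ⟨C, τ, hC, h⟩ := sec_ex
  refine ⟨C, _, hC, fun m y j Λ h2 h1 => ⟨{∅}, fun _ => 1, _, fun _ => zero_le_one, by simp,
    fun _ _ => h Λ _ _ (ks_free Λ) (fun x => if x.2.2 then eHi x.1 x.2.1 else eLo x.1)
      (fun x => if x.2.2 then AL.ep (eLo x.1) (eHi x.1 x.2.1) else 1) ?_ (Or.inl rfl) y j,
    fun ks hk u => ?_⟩⟩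
  · rintro ⟨v, j, _ | _⟩
    · exact ⟨AL.eLo_cnr _, (zd_self _).trans_le zero_le_one, abs_one⟩
    · refine ⟨AL.eHi_cnr _ _, (zd_self _).trans_le zero_le_one, ?_⟩
      simp only [if_true, AL.ep]
      split_ifs <;> simp
  set N := ∑ k, ((y k).1.natAbs + (y k).2.natAbs) + 2 with hN
  have e := P144T.E.mix (n := 0) (N := N) (u := Fin.elim0) (v := y) (j := j) (Λ := Λ) hJ
    ⟨fun i => i.elim0, fun k => by
      have := single_le_sum (f := fun k => (y k).1.natAbs + (y k).2.natAbs)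
        (fun _ _ => Nat.zero_le _) (mem_univ k)
      rw [Int.abs_eq_natAbs, Int.abs_eq_natAbs]
      omega, fun i => i.elim0, fun k l e => by_contra fun a => by
      have := h2 k l a
      rw [e, zd_self] at this
      omega, fun i => i.elim0⟩ (by omega) ⟨fun i => i.elim0, fun k => h1 k _ (by simp [zd_self]),
      fun k => h1 k _ (zd_dir _ _).le⟩ hk u
  set g : Fin m × Bool → Lb 0 m := fun x => if x.2 then .hi x.1 else .lo x.1 with hg
  have e1 : AL.lbs (n := 0) ks [] = (lb ks).map g := by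
    simp [AL.lbs, lb, AL.flat_map, hg]
  have e2 : AL.srcs (Fin.elim0 : Fin 0 → Site) = [] := rfl
  have e3 : AL.fcs [] = 0 := rfl
  have e4 : H436.MM Λ 0 = 1 := div_self (AL.QQ_pos _ _).ne'
  simp only [AL.GG, AL.SG, e1, e2, e3, e4, List.map_nil, List.append_nil, List.prod_nil, one_mul,
    AL.el, AL.Pf_map] at e
  rw [sum_singleton, one_mul]
  refine e.trans (congrArg (Pf · _) ?_)
  funext ⟨k, b⟩ ⟨l, b'⟩
  cases b <;> cases b' <;> simp [cenK, hg, P144T.E.KK, AL.wl, AL.sk, AL.cn, e2, e3]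

end Vale.Agent.P144DV
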