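import Vale.Agent.P144DV.Lat
import Vale.Agent.P144DM.Maj
import Vale.Agent.P144DY.Cont
import Vale.Agent.P144DR.Blk

/-!
Pairs of energies for the nearest-neighbour model.
-/

namespace Vale.Agent.P144DV

open Finset Filter Topology MeasureTheory Vale.Agent.P144 Vale.Agent.P144DC Vale.Agent.P144F
open Vale.Agent.P144Z hiding en
open Vale.Agent.P144DR Vale.Agent.P144DM

theorem cc_lcor (E : (Config → ℝ) → ℝ) {m : ℕ} (y : Fin m → Site) (j : Fin m → Fin 2)
    (ks : List (Fin m)) : cc E y j ks =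
      lcor E ![] (fun i : Fin ks.length => y ks[i.1]) fun i => j ks[i.1] := by
  simp only [cc, lcor, ← Fin.prod_univ_fun_getElem, univ_eq_empty, prod_empty, one_mul]
  rfl

theorem abs_cc {E : (Config → ℝ) → ℝ} (h : IsSt E) {m : ℕ} (y : Fin m → Site) (j : Fin m → Fin 2)
    (ks : List (Fin m)) : |cc E y j ks| ≤ 2 ^ ks.length := h.abs_le fun σ => by
  rw [← Fin.prod_univ_fun_getElem, abs_prod, ← Fin.prod_const]
  refine prod_le_prod (fun _ _ => abs_nonneg _) fun i _ => (abs_sub _ _).trans ?_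
  linarith [abs_en (y ks[i.1]) (j ks[i.1]) σ, h.abs_le fun σ => (abs_en (y ks[i.1]) (j ks[i.1]) σ).le]

theorem cc_lim {J : ℝ} (hJ : 0 < J) {μ : Measure Config}
    (hμ : IsPlaneState J 0 (fun _ => 0) (Kc / J) μ) (b : Option Config) {m : ℕ} (y : Fin m → Site)
    (j : Fin m → Fin 2) (ks : List (Fin m)) : Tendsto (fun M => cc (gb J b (P144.box M)) y j ks)
      atTop (𝓝 (cc (fun F => ∫ σ, F σ ∂μ) y j ks)) := by
  simp only [cc_lcor]
  refine lcor_lim (fun _ => isSt_gibbs ..) ⟨μ, hμ.1, fun _ => rfl⟩ ?_ _ _ _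
  rintro F ⟨A, e⟩
  rw [funext e]
  refine Metric.tendsto_atTop.2 fun ε hε => ?_
  obtain ⟨M, hM⟩ := St.unif hJ A (half_pos hε)
  refine ⟨M, fun k hk => ?_⟩
  have := St.plane_cl hJ hμ A
  unfold H436.spA at this
  rw [Real.dist_eq, this]
  exact (hM _ (H436.box_mono hk) _ b).trans_lt (half_lt_self hε)

theorem ev_box {m : ℕ} (y : Fin m → Site) (d : ℕ) :
    ∀ᶠ M in atTop, ∀ k v, zd v (y k) ≤ d → v ∈ P144.box M := by
  filter_upwards [H436.subset_box (univ.biUnion fun i => H436.boxAt (y i) d)] with M hM k v hv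
  exact hM (mem_biUnion.2 ⟨k, mem_univ _, MD.mem_boxAt_zd.2 hv⟩)

theorem lat_all {J : ℝ} (hJ : 0 < J) {μ : Measure Config}
    (hμ : IsPlaneState J 0 (fun _ => 0) (Kc / J) μ) :
    (∃ C, LV (fun F => ∫ σ, F σ ∂μ) Set.univ C) ∧ ∀ b : Option Config,
      (b = none ∨ b = some (fun _ => true) ∨ b = some fun _ => false) → ∃ C, ∀ Λ : Finset Site,
        LV (gb J b Λ) Λ C ∧ LL (gb J b Λ) (fun F => ∫ σ, F σ ∂μ) Λ C := by
  have k : ∀ b, Mix J b → ∃ C, ∀ Λ : Finset Site,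
      LV (gb J b Λ) Λ C ∧ LL (gb J b Λ) (fun F => ∫ σ, F σ ∂μ) Λ C := fun b h => by
    obtain ⟨C, -, h⟩ := lat_of hJ h
    refine ⟨C, fun Λ => ⟨(h Λ).1, fun y j d h1 h2 => ?_⟩⟩
    refine le_of_tendsto (((cc_lim hJ hμ b y j _).const_sub _).abs.mul_const _) ?_
    filter_upwards [ev_box y d] with M hM
    exact (h Λ).2 _ y j d h1 fun k v hv => ⟨h2 k v hv, hM k v hv⟩
  refine ⟨(k _ (mix_free hJ)).imp fun C h y j r ρ d h1 h2 h3 h4 h5 h6 _ => ?_, ?_⟩
  · refine le_of_tendsto (((cc_lim hJ hμ none y j _).sub ((cc_lim hJ hμ none y j _).mul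
      (cc_lim hJ hμ none y j _))).abs.mul_const _) ?_
    filter_upwards [ev_box y d] with M hM
    exact (h _).1 y j r ρ d h1 h2 h3 h4 h5 h6 hM
  rintro b (rfl | rfl | rfl)
  · exact k _ (mix_free hJ)
  · exact k _ (mix_plus hJ)
  · have e : ∀ Λ {m : ℕ} (y : Fin m → Site) j ks, cc (gb J (some fun _ => false) Λ) y j ks =
        cc (gb J (some fun _ => true) Λ) y j ks := fun Λ m y j ks => by
      rw [cc_lcor, cc_lcor]
      exact (U2D.lcor_not U1.pot_zero Λ (fun _ => true) _ _ _).trans (by rw [pow_zero, one_mul])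
    simpa only [LV, LL, e] using k _ (mix_plus hJ)

theorem small {u c : ℝ} (hu : 0 < u) (hc : 0 < c) : ∀ᶠ a in 𝓝[>] (0 : ℝ), a ^ u ≤ c := by
  have : Tendsto (fun a : ℝ => a ^ u) (𝓝 0) (𝓝 ((0 : ℝ) ^ u)) :=
    (Real.continuousAt_rpow_const 0 u (Or.inr hu.le)).tendsto
  rw [Real.zero_rpow hu.ne'] at this
  exact nhdsWithin_le_nhds (this.eventually (ge_mem_nhds hc))

/-- The intermediate scale. -/
theorem geo {θ s₀ : ℝ} (h0 : 0 < θ) (h1 : θ ≤ 3 / 2) (hs : 0 < s₀) (M : ℝ) :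
    ∃ κ > (0 : ℝ), ∀ᶠ a in 𝓝[>] (0 : ℝ), 0 < a ∧ a ^ (θ / 2) ≤ 1 / 4 ∧ ∃ d : ℕ,
      (∀ z w : ℂ, a ^ (θ / 2) / 2 ≤ ‖z - w‖ → d ≤ zd (fl a z) (fl a w)) ∧
      (∀ (z : ℂ) (v : Site), zd v (fl a z) ≤ d → (⟨a * v.1, a * v.2⟩ : ℂ) ∈ Metric.ball z s₀) ∧
      ∀ ρ : ℕ, ρ ≤ a ^ θ / a + 1 → 200 * (ρ + 1) ≤ d ∧ M * rt ((ρ + 1) / d) ≤ a ^ κ := by
  have η0 : 0 < min (θ / 2) (1 / 4) := by positivity
  set η := min (θ / 2) (1 / 4) with hη
  refine ⟨η / 16, by positivity, ?_⟩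
  filter_upwards [Ioo_mem_nhdsGT one_pos, small η0 (show 0 < min s₀ (1 / 10000) by positivity),
    small (show 0 < η / 16 by positivity) (show 0 < (2 * (|M| + 1))⁻¹ by positivity)]
    with a ⟨a0, a1⟩ e1 e2
  rw [le_min_iff] at e1
  have t0 := Real.rpow_pos_of_pos a0 (θ / 2)
  have t1 : a ^ (θ / 2) ≤ a ^ η := Real.rpow_le_rpow_of_exponent_ge a0 a1.le (min_le_left _ _)
  have t2 : a ^ θ = a ^ (θ / 2) * a ^ (θ / 2) := by rw [← Real.rpow_add a0, add_halves]
  have t3 : a ≤ a ^ η * a ^ (θ / 2) := by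
    rw [← Real.rpow_add a0]
    simpa using Real.rpow_le_rpow_of_exponent_ge a0 a1.le
      (show η + θ / 2 ≤ 1 by linarith [min_le_right (θ / 2) (1 / 4)])
  have t4 : a ^ (η / 16) * a ^ (η / 16) = rt (a ^ η) := by
    rw [rt, ← Real.rpow_add a0, ← Real.rpow_mul a0.le]
    ring_nf
  have k0 := Real.rpow_pos_of_pos a0 (η / 16)
  have u0 := Real.rpow_pos_of_pos a0 η
  rw [t2]
  generalize a ^ (θ / 2) = t at *
  generalize a ^ η = u at *
  have d1 := (le_div_iff₀ (by positivity)).1 (Nat.floor_le (show 0 ≤ t / (8 * a) by positivity))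
  have d2 := (div_lt_iff₀ (by positivity)).1 (Nat.lt_floor_add_one (t / (8 * a)))
  have t5 : 10000 * a ≤ t := by nlinarith
  refine ⟨a0, by linarith, ⌊t / (8 * a)⌋₊, fun z w h => ?_, fun z v h => ?_, fun ρ h => ?_⟩ <;>
    generalize ⌊t / (8 * a)⌋₊ = d at *
  · have := h.trans (norm_fl a0 z w)
    have : a * d ≤ a * zd (fl a z) (fl a w) := by linarith
    exact_mod_cast le_of_mul_le_mul_left this a0
  · have k1 := norm_fl a0 ⟨a * v.1, a * v.2⟩ z
    rw [P144F.fl_pt a0] at k1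
    have k2 : a * (zd v (fl a z) : ℝ) ≤ a * d :=
      mul_le_mul_of_nonneg_left (by exact_mod_cast h) a0.le
    rw [mem_ball_iff_norm]
    linarith
  · rw [← sub_le_iff_le_add, le_div_iff₀ a0] at h
    have d0 : (0 : ℝ) < d := by nlinarith
    have q : ((ρ : ℝ) + 1) / d ≤ 48 * u := by
      rw [div_le_iff₀ d0]
      refine le_of_mul_le_mul_left ?_ a0
      have := mul_le_mul_of_nonneg_left (show t ≤ 16 * (a * d) by linarith) u0.le
      have := mul_le_mul_of_nonneg_right t1 t0.le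
      linarith
    refine ⟨?_, ?_⟩
    · have : ((ρ : ℝ) + 1) / d ≤ 1 / 200 := by linarith
      rw [div_le_div_iff₀ d0 (by norm_num)] at this
      exact_mod_cast (by linarith : 200 * ((ρ : ℝ) + 1) ≤ d)
    · have q1 := rt_le (by positivity) (q.trans (show 48 * u ≤ 2 ^ 8 * u by linarith))
      have q2 : rt (2 ^ 8) = 2 := by
        rw [rt, ← Real.rpow_natCast, ← Real.rpow_mul zero_le_two]
        norm_num
      rw [rt_mul (by positivity) u0.le, q2, ← t4] at q1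
      rw [← one_div, le_div_iff₀ (by positivity)] at e2
      refine (mul_le_mul (le_abs_self M) q1 (rt_pos (by positivity)).le (abs_nonneg _)).trans ?_
      nlinarith

theorem corr_ens {E : (Config → ℝ) → ℝ} (h : IsSt E) (a : ℝ) {m : ℕ} (y : Fin m → ℂ)
    (j : Fin m → Fin 2) : corr a E (ens y j) = a⁻¹ ^ m *
      E fun σ => ∏ k, (en (fl a (y k)) (j k) σ - E (en (fl a (y k)) (j k))) := by
  rw [corr_st h]
  change _ ^ 0 * _ ^ m * lcor E (n := 0) (m := m) _ _ _ = _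
  simp only [pow_zero, one_mul, lcor, univ_eq_empty, prod_empty]
  rfl

theorem corr2 {E : (Config → ℝ) → ℝ} (h : IsSt E) (a : ℝ) {m : ℕ} (y : Fin m → ℂ)
    (j : Fin m → Fin 2) (k l : Fin m) : corr a E (ens ![y k, y l] ![j k, j l]) =
      a⁻¹ ^ 2 * cc E (fun k => fl a (y k)) j [k, l] := by
  rw [corr_ens h]
  simp only [cc, Fin.prod_univ_two, List.map_cons, List.map_nil, List.prod_cons, List.prod_nil,
    mul_one]
  rfl

theorem corr4 {E : (Config → ℝ) → ℝ} (h : IsSt E) (a : ℝ) (y : Fin 4 → ℂ) (j : Fin 4 → Fin 2) :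
    corr a E (ens y j) = a⁻¹ ^ 4 * cc E (fun k => fl a (y k)) j [0, 1, 2, 3] := by
  rw [corr_ens h]
  simp only [cc, Fin.prod_univ_four, List.map_cons, List.map_nil, List.prod_cons, List.prod_nil,
    mul_one, mul_assoc]

theorem size {a : ℝ} (ha : 0 < a) (z w : ℂ) : ‖z - w‖ + a ≤ a * (3 * (zd (fl a z) (fl a w) + 1)) := by
  have := norm_fl ha z w
  have : 0 ≤ a * zd (fl a z) (fl a w) := by positivity
  linarith

theorem cvm_of {D : Set ℂ} {E : Fam} {C : ℝ} (hE : ∀ a > 0, IsSt (E a))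
    (h : ∀ a > 0, LV (E a) (sites D a) C) : CVM D E := by
  intro θ h0 k s₀ hs
  have key : ∀ a > 0, ∀ (s : ℝ) (y : Fin 4 → ℂ) (j : Fin 4 → Fin 2),
      |corr a (E a) (ens y j) - corr a (E a) (ens ![y 0, y 1] ![j 0, j 1]) *
        corr a (E a) (ens ![y 2, y 3] ![j 2, j 3])| * s ^ 4 =
      |cc (E a) (fun k => fl a (y k)) j [0, 1, 2, 3] - cc (E a) (fun k => fl a (y k)) j [0, 1] *
        cc (E a) (fun k => fl a (y k)) j [2, 3]| * (s / a) ^ 4 := fun a ha s y j => by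
    rw [corr4 (hE a ha), corr2 (hE a ha), corr2 (hE a ha), mul_mul_mul_comm, ← pow_add, ← mul_sub,
      abs_mul, abs_of_pos (by positivity)]
    ring
  rcases le_total θ (3 / 2) with h1 | h1
  · obtain ⟨κ, k0, g⟩ := geo h0 h1 hs ((3 * k) ^ 4 * C)
    refine ⟨κ, k0, g.mono fun a ⟨a0, a1, d, g1, g2, g3⟩ s s1 y j i y1 y2 y3 y4 y5 => ?_⟩
    have s0 := (norm_nonneg _).trans y1
    have z : ∀ z w : ℂ, ‖z - w‖ ≤ s → zd (fl a z) (fl a w) ≤ ⌊a ^ θ / a + 1⌋₊ := fun z w h =>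
      Nat.le_floor ((P144DY.zd_fl a0 z w).1.trans (by gcongr; exact h.trans s1))
    obtain ⟨g4, g5⟩ := g3 _ (Nat.floor_le (by positivity))
    have t2 : a ^ θ = a ^ (θ / 2) * a ^ (θ / 2) := by rw [← Real.rpow_add a0, add_halves]
    have s2 : s ≤ a ^ (θ / 2) / 4 := by nlinarith [Real.rpow_pos_of_pos a0 (θ / 2)]
    have := h a a0 (fun k => fl a (y k)) j _ _ d (min_le_left _ _) (z _ _ y1) (min_le_right _ _)
      (z _ _ y2) g4 (fun k l hk hl => g1 _ _ ?_) fun k v hv => (i (.inr k)).2 (g2 _ v hv)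
    · rw [key a a0]
      refine le_trans ?_ ((mul_assoc _ _ _).ge.trans g5)
      refine le_trans ?_ (mul_le_mul_of_nonneg_left this (by positivity))
      rw [mul_left_comm, ← mul_pow]
      refine mul_le_mul_of_nonneg_left (pow_le_pow_left₀ (by positivity) ?_ 4) (abs_nonneg _)
      have k0 : (0 : ℝ) ≤ k := k.cast_nonneg
      rw [div_le_iff₀ a0, Nat.cast_min]
      rcases min_choice (zd (fl a (y 0)) (fl a (y 1)) : ℝ) (zd (fl a (y 2)) (fl a (y 3))) with e | e <;>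
        rw [e]
      · exact y3.trans ((mul_le_mul_of_nonneg_left (size a0 _ _) k0).trans_eq (by ring))
      · exact y4.trans ((mul_le_mul_of_nonneg_left (size a0 _ _) k0).trans_eq (by ring))
    · have b1 : ‖y 0 - y k‖ ≤ s := by
        obtain rfl | rfl : k = 0 ∨ k = 1 := by omega
        exacts [by simpa using s0, y1]
      have b2 : ‖y l - y 2‖ ≤ s := by
        obtain rfl | rfl : l = 2 ∨ l = 3 := by omega
        exacts [by simpa using s0, (norm_sub_rev _ _).trans_le y2]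
      linarith [norm_sub_le_norm_sub_add_norm_sub (y 0) (y k) (y 2),
        norm_sub_le_norm_sub_add_norm_sub (y k) (y l) (y 2)]
  · refine ⟨1, one_pos, ?_⟩
    filter_upwards [Ioo_mem_nhdsGT (show (0 : ℝ) < 1 / 32 by norm_num)]
      with a ⟨a0, a1⟩ s s1 y j _ y1 _ _ _ _
    have s0 := (norm_nonneg _).trans y1
    have s2 : (s / a) ^ 4 ≤ a ^ 2 := by
      have := pow_le_pow_left₀ s0 (s1.trans (Real.rpow_le_rpow_of_exponent_ge a0 (by linarith) h1)) 4
      rw [← Real.rpow_natCast (a ^ _), ← Real.rpow_mul a0.le,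
        show (3 / 2 : ℝ) * (4 : ℕ) = (6 : ℕ) by norm_num, Real.rpow_natCast] at this
      rw [div_pow, div_le_iff₀ (by positivity)]
      exact this.trans_eq (by ring)
    have c := abs_cc (hE a a0) (fun k => fl a (y k)) j
    have c1 := mul_le_mul (c [0, 1]) (c [2, 3]) (abs_nonneg _) (by positivity)
    have c2 := (abs_sub _ _).trans (add_le_add (c [0, 1, 2, 3]) ((abs_mul _ _).trans_le c1))
    rw [key a a0, Real.rpow_one]
    refine (mul_le_mul c2 s2 (by positivity) (by positivity)).trans ?_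
    norm_num
    nlinarith

theorem loc_of {D : Set ℂ} {E E' : Fam} {C : ℝ} (hE : ∀ a > 0, IsSt (E a))
    (hE' : ∀ a > 0, IsSt (E' a)) (h : ∀ a > 0, LL (E a) (E' a) (sites D a) C) : LOC D E E' := by
  intro θ h0 s₀ hs
  obtain ⟨κ, k0, g⟩ := geo (lt_min h0 one_pos) ((min_le_right _ _).trans (by norm_num)) hs (9 * C)
  refine ⟨κ, k0, ?_⟩
  filter_upwards [g, Ioo_mem_nhdsGT one_pos] with a ⟨a0, _, d, _, g2, g3⟩ ⟨_, a1⟩ y j i y1
  obtain ⟨g4, g5⟩ := g3 _ ((P144DY.zd_fl a0 (y 0) (y 1)).1.trans (by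
    gcongr
    exact y1.trans (Real.rpow_le_rpow_of_exponent_ge a0 a1.le (min_le_left _ _))))
  have := h a a0 (fun k => fl a (y k)) j d g4 fun k v hv => (i (.inr k)).2 (g2 _ v hv)
  have e : ens y j = ens ![y 0, y 1] ![j 0, j 1] := by
    congr 1 <;> funext k <;> fin_cases k <;> rfl
  rw [e, corr2 (hE a a0), corr2 (hE' a a0), ← mul_sub, abs_mul, abs_of_pos (by positivity)]
  refine le_trans ?_ ((mul_assoc _ _ _).ge.trans g5)
  refine le_trans ?_ (mul_le_mul_of_nonneg_left this (by positivity))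
  refine (mul_le_mul_of_nonneg_left (pow_le_pow_left₀ (by positivity) (size a0 _ _) 2)
    (by positivity)).trans_eq ?_
  field_simp
  ring

/-- **Block V0.** -/
theorem blkV0 : BlkV0 := by
  intro J hJ μ hμ
  obtain ⟨⟨C, h1⟩, h2⟩ := lat_all hJ hμ
  have st : ∀ a > (0 : ℝ), IsSt (famOf μ a) := fun _ _ => ⟨μ, hμ.1, fun _ => rfl⟩
  refine ⟨?_, cvm_of st fun _ _ => h1, fun D b _ bd hb => ?_⟩
  · rintro E₀ ⟨ν, n1, n2⟩ a ha p
    have s1 : IsSt (E₀ a) := ⟨ν a, (n1 a ha).1, n2 a⟩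
    have e : ∀ F, Mon F → E₀ a F = famOf μ a F := by
      rintro F ⟨A, e⟩
      rw [funext e, n2]
      exact (St.plane_cl hJ (n1 a ha) A).trans (St.plane_cl hJ hμ A).symm
    rw [corr_st s1, corr_st (st a ha)]
    exact congrArg _ (tendsto_nhds_unique tendsto_const_nhds (lcor_lim (fun _ => s1) (st a ha)
      (fun F hF => e F hF ▸ tendsto_const_nhds) _ _ _))
  · have e : ∀ a > 0, sites D a = disc D a := fun a ha =>
      Set.ext fun v => (mem_disc bd ha v).symm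
    have : ∃ C, ∀ a > 0, LV (crit J D b a) (sites D a) C ∧
        LL (crit J D b a) (famOf μ a) (sites D a) C := by
      rcases hb with rfl | rfl | rfl
      · exact (h2 _ (.inl rfl)).imp fun C h a ha => e a ha ▸ h _
      · exact (h2 _ (.inr (.inl rfl))).imp fun C h a ha => e a ha ▸ h _
      · exact (h2 _ (.inr (.inr rfl))).imp fun C h a ha => e a ha ▸ h _
    obtain ⟨C, h⟩ := this
    exact ⟨cvm_of (fun _ _ => isSt_gibbs ..) fun a ha => (h a ha).1,
      loc_of (fun _ _ => isSt_gibbs ..) st fun a ha => (h a ha).2⟩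

end Vale.Agent.P144DV
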