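import Vale.Agent.P144DV.Pfa
import Vale.Agent.P144DC.Lat

/-!
Pairs of energies on the lattice, at any distance.
-/

namespace Vale.Agent.P144DV

open Finset Vale.Agent.P144 Vale.Agent.P144DC
open Vale.Agent.P144Z hiding en
open Vale.Agent.P144.H436 (boxAt spA)
open Vale.Agent.P144Z.St (mag gibbs_V0)
open Vale.Agent.P144F (rt rt_pos rt_le rt_mul rt_inv rt_div zd_tri)

theorem gibbs_cen (J : ℝ) (b : Option Config) (Λ : Finset Site) (f g : Config → ℝ) (u v : ℝ) :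
    gibbs J 0 Vk (Kc / J) b Λ (fun σ => (f σ - u) * (g σ - v)) =
      gibbs J 0 Vk (Kc / J) b Λ (fun σ => f σ * g σ) - v * gibbs J 0 Vk (Kc / J) b Λ f -
        u * gibbs J 0 Vk (Kc / J) b Λ g + u * v := by
  obtain ⟨η, w, -, w1, e⟩ := gibbs_form (J := J) (lam := 0) (β := Kc / J) (V := Vk) b Λ
  rw [← mul_one (u * v), ← w1]
  simp only [e, mul_sum, ← sum_sub_distrib, ← sum_add_distrib]
  exact sum_congr rfl fun _ _ => by ring

/-- Replacing a local function by a constant. -/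
theorem loc_cov {J c e g : ℝ} (b : Option Config) {Λ B : Finset Site}
    (h : ∀ u ∈ B, ∀ v, zd u v ≤ 1 → v ∈ Λ) {F G : Config → ℝ}
    (hF : ∀ σ, |gibbs J 0 Vk (Kc / J) (some σ) B F - c| ≤ e) (hG : ∀ σ T, G (P144.ext B σ T) = G σ)
    (hg : ∀ σ, |G σ| ≤ g) : |gb J b Λ (fun σ => F σ * G σ) - c * gb J b Λ G| ≤ e * g := by
  rw [gb, ← gibbs_V0 J _ Vk, ← gibbs_V0 J _ Vk, dlr_all J _ b h F G hG]
  have := gibbs_cen J b Λ (fun σ => gibbs J 0 Vk (Kc / J) (some σ) B F) G c 0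
  simp only [zero_mul, mul_zero, sub_zero, add_zero] at this
  rw [← this]
  refine (P144F.isSt_gibbs ..).abs_le fun σ => ?_
  rw [abs_mul]
  exact mul_le_mul (hF σ) (hg σ) (abs_nonneg _) ((abs_nonneg _).trans (hF σ))

variable {J : ℝ} (hJ : 0 < J)

include hJ

theorem osc_mon {n : ℕ} (hn : n ≤ 4) {u : Fin n → Site} {p : Site} {M R : ℕ}
    (hu : ∀ i, zd (u i) p + M ≤ R) (σ : Config) :
    |gibbs J 0 Vk (Kc / J) (some σ) (boxAt p R) (fun σ => ∏ i, sp (σ (u i))) -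
      gibbs J 0 Vk (Kc / J) (some bcp) (boxAt p R) fun σ => ∏ i, sp (σ (u i))| ≤
        8 * mag J (P144.box M) 0 := by
  obtain ⟨A, h1, h2⟩ := P144F.exists_odd univ u
  have m0 := St.mag_nonneg hJ (P144.box M) 0
  rw [funext h2]
  refine (St.bc_le hJ _ fun x hx => ?_).trans ?_
  · obtain ⟨i, -, rfl⟩ := h1 x hx
    exact MD.mem_boxAt_zd.2 (by have := hu i; omega)
  have c : A.card ≤ 4 := (card_le_card (t := univ.image u) fun x hx => mem_image.2 (h1 x hx)).trans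
    (card_image_le.trans (by simpa using hn))
  have := sum_le_card_nsmul A (mag J (boxAt p R)) (mag J (P144.box M) 0) fun x hx => by
    obtain ⟨i, -, rfl⟩ := h1 x hx
    rw [← St.mag_boxAt M (u i)]
    refine St.mag_anti hJ (fun v hv => ?_) (MD.mem_boxAt_zd.2 (by simp [zd_self]))
    rw [MD.mem_boxAt_zd] at hv ⊢
    have := zd_tri v (u i) p
    have := hu i
    omega
  rw [nsmul_eq_mul] at this
  have c' : (A.card : ℝ) ≤ 4 := by exact_mod_cast c
  nlinarith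

/-- The conditional expectations in a box. -/
theorem osc_en {v v' : Site} (j j' : Fin 2) {M R : ℕ} (h : zd v' v + 1 + M ≤ R) :
    ∃ c c' c'' : ℝ, |c'| ≤ 1 ∧ ∀ σ,
      |gibbs J 0 Vk (Kc / J) (some σ) (boxAt v R) (en v j) - c| ≤ 8 * mag J (P144.box M) 0 ∧
      |gibbs J 0 Vk (Kc / J) (some σ) (boxAt v R) (en v' j') - c'| ≤ 8 * mag J (P144.box M) 0 ∧
      |gibbs J 0 Vk (Kc / J) (some σ) (boxAt v R) (fun σ => en v j σ * en v' j' σ) - c''| ≤
        8 * mag J (P144.box M) 0 := by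
  have a := zd_dir v j
  have a' := zd_dir v' j'
  have a1 := zd_self v
  have a2 := zd_tri (v' + dir j') v' v
  have b1 := osc_mon hJ (u := ![v, v + dir j]) (p := v) (M := M) (R := R) (by omega)
    fun i => by fin_cases i <;> simp <;> omega
  have b2 := osc_mon hJ (u := ![v', v' + dir j']) (p := v) (M := M) (R := R) (by omega)
    fun i => by fin_cases i <;> simp <;> omega
  have b3 := osc_mon hJ (u := ![v, v + dir j, v', v' + dir j']) (p := v) (M := M) (R := R) le_rfl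
    fun i => by fin_cases i <;> simp <;> omega
  simp only [Fin.prod_univ_two] at b1 b2
  simp only [Fin.prod_univ_four, mul_assoc _ _ (sp _)] at b3
  exact ⟨_, _, _, (P144F.isSt_gibbs J 0 Vk (Kc / J) (some bcp) (boxAt v R)).abs_le
    fun σ => (abs_en v' j' σ).le, fun σ => ⟨b1 σ, b2 σ, by simpa [P144DC.en, mul_assoc] using b3 σ⟩⟩

omit hJ in
theorem box_in {Λ : Finset Site} {p : Site} {R d : ℕ} (h : ∀ v, zd v p ≤ d → v ∈ Λ) (hR : R < d) :
    ∀ u ∈ boxAt p R, ∀ v, zd u v ≤ 1 → v ∈ Λ := fun u hu v hv => h v (by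
  have := zd_tri v u p
  rw [MD.mem_boxAt_zd] at hu
  rw [zd_symm] at hv
  omega)

omit hJ in
theorem abs_gb (b : Option Config) (Λ : Finset Site) (v : Site) (j : Fin 2) :
    |gb J b Λ (en v j)| ≤ 1 := (P144F.isSt_gibbs ..).abs_le fun σ => (abs_en v j σ).le

omit hJ in
theorem en_ext {p v : Site} {R : ℕ} (h : R + 1 < zd p v) (j : Fin 2) (σ : Config) (T : Finset Site) :
    en v j (P144.ext (boxAt p R) σ T) = en v j σ := by
  have := zd_dir v j
  rw [en, en, P144Y.G.ext_out, P144Y.G.ext_out] <;> rw [MD.mem_boxAt_zd] <;> unfold zd at * <;>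
    omega

theorem cru2 (b : Option Config) {y : Fin 2 → Site} (j : Fin 2 → Fin 2) {d : ℕ}
    (h : 200 * (zd (y 0) (y 1) + 1) ≤ d) : ∃ c, ∀ Λ : Finset Site, (∀ v, zd v (y 0) ≤ d → v ∈ Λ) →
      |cc (gb J b Λ) y j [0, 1] - c| ≤ 24 * mag J (P144.box (d / 2)) 0 := by
  rw [zd_symm] at h
  obtain ⟨c, c', c'', h0, H⟩ := osc_en hJ (j 0) (j 1) (v := y 0) (v' := y 1) (M := d / 2) le_rfl
  refine ⟨c'' - c * c', fun Λ hΛ => ?_⟩
  have k := fun F c H => loc_cov (J := J) (c := c) (e := 8 * mag J (P144.box (d / 2)) 0) b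
    (box_in (R := zd (y 1) (y 0) + 1 + d / 2) hΛ (by omega)) (F := F) (G := fun _ => 1) H
    (fun _ _ => rfl) fun _ => abs_one.le
  have o : gb J b Λ (fun _ => 1) = 1 := by
    simpa using gibbs_aff (J := J) (lam := 0) (β := Kc / J) (V := fun _ => 0) b Λ 0 1 fun _ => 0
  simp only [mul_one, o] at k
  have q := prod_near (abs_gb (J := J) b Λ (y 0) (j 0)) h0 (k _ _ fun σ => (H σ).1)
    (k _ _ fun σ => (H σ).2.1)
  have q' := k _ _ fun σ => (H σ).2.2
  have e := gibbs_cen J b Λ (en (y 0) (j 0)) (en (y 1) (j 1)) (gb J b Λ (en (y 0) (j 0)))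
    (gb J b Λ (en (y 1) (j 1)))
  simp only [gibbs_V0 J _ Vk] at e
  simp only [cc, List.map_cons, List.map_nil, List.prod_cons, List.prod_nil, mul_one]
  rw [abs_le] at q q' ⊢
  constructor <;> linarith [q.1, q.2, q'.1, q'.2]

theorem cru4 (b : Option Config) {y : Fin 4 → Site} (j : Fin 4 → Fin 2) {d : ℕ} {Λ : Finset Site}
    (h : 200 * (zd (y 0) (y 1) + 1) ≤ d) (h2 : d ≤ zd (y 0) (y 2)) (h3 : d ≤ zd (y 0) (y 3))
    (hΛ : ∀ v, zd v (y 0) ≤ d → v ∈ Λ) :
    |cc (gb J b Λ) y j [0, 1, 2, 3] - cc (gb J b Λ) y j [0, 1] * cc (gb J b Λ) y j [2, 3]| ≤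
      192 * mag J (P144.box (d / 2)) 0 := by
  rw [zd_symm] at h
  obtain ⟨c, c', c'', -, H⟩ := osc_en hJ (j 0) (j 1) (v := y 0) (v' := y 1) (M := d / 2) le_rfl
  set u := fun k => gb J b Λ (en (y k) (j k)) with hu
  have u1 : ∀ k, |u k| ≤ 1 := fun k => abs_gb b Λ _ _
  have u2 : ∀ k σ, |en (y k) (j k) σ - u k| ≤ 2 := fun k σ =>
    (abs_sub _ _).trans (by linarith [u1 k, abs_en (y k) (j k) σ])
  have k := fun G g => loc_cov (J := J) (c := c'' - u 1 * c - u 0 * c' + u 0 * u 1) (g := g)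
    (e := 24 * mag J (P144.box (d / 2)) 0) b
    (box_in (R := zd (y 1) (y 0) + 1 + d / 2) hΛ (by omega)) (G := G)
    (F := fun σ => (en (y 0) (j 0) σ - u 0) * (en (y 1) (j 1) σ - u 1)) fun σ => by
      obtain ⟨a1, a2, a3⟩ := H σ
      have b1 := mul_le_mul (u1 1) a1 (abs_nonneg _) zero_le_one
      have b2 := mul_le_mul (u1 0) a2 (abs_nonneg _) zero_le_one
      rw [← abs_mul, abs_le] at b1 b2
      rw [gibbs_cen]
      rw [abs_le] at a3 ⊢
      constructor <;> linarith [a3.1, a3.2, b1.1, b1.2, b2.1, b2.2]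
  have g4 : ∀ σ, |(en (y 2) (j 2) σ - u 2) * (en (y 3) (j 3) σ - u 3)| ≤ 4 := fun σ => by
    rw [abs_mul]
    linarith [mul_le_mul (u2 2 σ) (u2 3 σ) (abs_nonneg _) zero_le_two]
  have k1 := k _ _ (fun σ T => by rw [en_ext (by omega), en_ext (by omega)]) g4
  have k2 := k (fun _ => 1) 1 (fun _ _ => rfl) fun _ => abs_one.le
  have o1 : gb J b Λ (fun _ => 1) = 1 := by
    simpa using gibbs_aff (J := J) (lam := 0) (β := Kc / J) (V := fun _ => 0) b Λ 0 1 fun _ => 0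
  simp only [mul_one, o1] at k2
  have k3 := mul_le_mul k2 ((P144F.isSt_gibbs J 0 (fun _ => 0) (Kc / J) b Λ).abs_le g4)
    (abs_nonneg _) ((abs_nonneg _).trans k2)
  simp only [cc, List.map_cons, List.map_nil, List.prod_cons, List.prod_nil, mul_one]
  simp only [mul_assoc] at k1
  rw [← abs_mul, sub_mul, abs_le] at k3
  rw [abs_le] at k1 ⊢
  constructor <;> linarith [k1.1, k1.2, k3.1, k3.2]

omit hJ in
/-- Two distant pairs. -/
def LV (E : (Config → ℝ) → ℝ) (Λ : Set Site) (C : ℝ) : Prop :=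
  ∀ (y : Fin 4 → Site) (j : Fin 4 → Fin 2) (r ρ d : ℕ), r ≤ zd (y 0) (y 1) → zd (y 0) (y 1) ≤ ρ →
    r ≤ zd (y 2) (y 3) → zd (y 2) (y 3) ≤ ρ → 200 * (ρ + 1) ≤ d →
    (∀ k l, k ≤ 1 → 2 ≤ l → d ≤ zd (y k) (y l)) → (∀ k v, zd v (y k) ≤ d → v ∈ Λ) →
      |cc E y j [0, 1, 2, 3] - cc E y j [0, 1] * cc E y j [2, 3]| * ((r : ℝ) + 1) ^ 4 ≤
        C * rt ((ρ + 1) / d)

omit hJ in
/-- One pair. -/
def LL (E E' : (Config → ℝ) → ℝ) (Λ : Set Site) (C : ℝ) : Prop :=
  ∀ (y : Fin 2 → Site) (j : Fin 2 → Fin 2) (d : ℕ), 200 * (zd (y 0) (y 1) + 1) ≤ d →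
    (∀ k v, zd v (y k) ≤ d → v ∈ Λ) → |cc E y j [0, 1] - cc E' y j [0, 1]| *
      ((zd (y 0) (y 1) : ℝ) + 1) ^ 2 ≤ C * rt ((zd (y 0) (y 1) + 1) / d)

theorem lat_of {b : Option Config} (h : Mix J b) : ∃ C, 0 ≤ C ∧ ∀ Λ : Finset Site,
    LV (gb J b Λ) Λ C ∧ ∀ Λ' : Finset Site, LL (gb J b Λ) (gb J b Λ') (Λ ∩ Λ') C := by
  obtain ⟨C, τ, hC, h⟩ := h.cen
  obtain ⟨N, N0, hN⟩ := Cen.four
  obtain ⟨K, K0, hK⟩ := MD.mag_decay' hJ
  have m : ∀ ρ d : ℕ, 200 * (ρ + 1) ≤ d → mag J (P144.box (d / 2)) 0 ≤ 2 * K * rt ((ρ + 1) / d) ∧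
      ((ρ : ℝ) + 1) / d ≤ rt ((ρ + 1) / d) := fun ρ d hd => by
    have d0 : (0 : ℝ) < d := by exact_mod_cast (by omega)
    have d1 : (d : ℝ) ≤ 2 ^ 8 * ((d / 2 : ℕ) + 1) * (ρ + 1) := by exact_mod_cast (by nlinarith [
      (show d ≤ 2 * (d / 2 + 1) by omega)])
    refine ⟨(hK _).trans ?_, ?_⟩
    · rw [mul_comm 2, mul_assoc]
      refine mul_le_mul_of_nonneg_left ?_ K0.le
      rw [← inv_mul_le_iff₀ two_pos, rt_inv (by positivity)]
      refine P144F.le_rt (by have := rt_pos (s := (d / 2 : ℕ) + 1) (by positivity); positivity) ?_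
      rw [mul_pow, inv_pow, inv_pow, P144F.rt_pow (by positivity), ← mul_inv, le_div_iff₀ d0,
        inv_mul_le_iff₀ (by positivity)]
      exact d1
    · refine P144F.le_rt (by positivity) (pow_le_of_le_one (by positivity) ?_ (by norm_num))
      rw [div_le_one d0]
      exact_mod_cast (by omega)
  obtain ⟨X, hX⟩ : ∃ X, X = N * (2 * C + 1) ^ 4 + 520 * C ^ 4 := ⟨_, rfl⟩
  have X0 : 0 ≤ X := by rw [hX]; positivity
  have C2 := sq_nonneg C
  refine ⟨8 * X + 40 * C ^ 2 + 400 ^ 5 * K, by positivity, fun Λ =>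
    ⟨fun y j r ρ d h1 h2 h3 h4 h5 h6 h7 => ?_, fun Λ' y j d h1 h2 => ?_⟩⟩
  · obtain ⟨m1, m2⟩ := m ρ d h5
    have t0 : 0 ≤ rt ((ρ + 1) / d) := le_trans (by positivity) m2
    by_cases hr : 400 ≤ r
    · have := hN h hC hr y j Λ h1 (by omega) h3 (by omega) h6 h7
      have r0 : (1 : ℝ) ≤ r := by exact_mod_cast (by omega)
      have r1 : (r : ℝ) + 1 ≤ ρ + 1 := by exact_mod_cast (by omega)
      have r2 : ((r : ℝ) + 1) ^ 4 ≤ (2 * r) ^ 3 * (ρ + 1) := by
        rw [pow_succ]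
        exact mul_le_mul (pow_le_pow_left₀ (by positivity) (by linarith) 3) r1 (by positivity)
          (by positivity)
      rw [← hX] at this
      refine (mul_le_mul this r2 (by positivity) (by positivity)).trans ?_
      rw [show X / (r ^ 3 * d) * ((2 * r) ^ 3 * (ρ + 1)) = 8 * X * ((ρ + 1) / d) by field_simp; ring]
      exact mul_le_mul (by nlinarith) m2 (by positivity) (by positivity)
    · have := cru4 hJ b j (by omega) (h6 0 2 (by decide) (by decide))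
        (h6 0 3 (by decide) (by decide)) (h7 0)
      have r1 : (r : ℝ) + 1 ≤ 400 := by exact_mod_cast (by omega)
      refine (mul_le_mul (this.trans (mul_le_mul_of_nonneg_left m1 (by norm_num)))
        (pow_le_pow_left₀ (by positivity) r1 4) (by positivity) (by positivity)).trans ?_
      nlinarith [mul_nonneg K0.le t0, mul_nonneg X0 t0, mul_nonneg C2 t0]
  · obtain ⟨m1, m2⟩ := m _ d h1
    have a1 : ∀ k v, zd v (y k) ≤ d → v ∈ Λ := fun k v hv => (h2 k v hv).1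
    have a2 : ∀ k v, zd v (y k) ≤ d → v ∈ Λ' := fun k v hv => (h2 k v hv).2
    generalize hr' : zd (y 0) (y 1) = r at m1 m2
    have t0 : 0 ≤ rt ((r + 1) / d) := le_trans (by positivity) m2
    by_cases hr : 400 ≤ r
    · have := (abs_sub_le _ _ _).trans (add_le_add (h.two hC hr j hr'.ge h1 a1)
        ((abs_sub_comm _ _).trans_le (h.two hC hr j hr'.ge h1 a2)))
      have r0 : (1 : ℝ) ≤ r := by exact_mod_cast (by omega)
      have r2 : ((r : ℝ) + 1) ^ 2 ≤ 2 * r * (r + 1) := by nlinarith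
      refine (mul_le_mul this r2 (by positivity) (by positivity)).trans ?_
      rw [show (10 * C ^ 2 / (r * d) + 10 * C ^ 2 / (r * d)) * (2 * r * (r + 1)) =
        40 * C ^ 2 * ((r + 1) / d) by field_simp; ring]
      exact mul_le_mul (by nlinarith) m2 (by positivity) (by positivity)
    · obtain ⟨c, hc⟩ := cru2 hJ b j h1
      have := (abs_sub_le _ _ _).trans (add_le_add (hc Λ (a1 0))
        ((abs_sub_comm _ _).trans_le (hc Λ' (a2 0))))
      have r1 : (r : ℝ) + 1 ≤ 400 := by exact_mod_cast (by omega)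
      refine (mul_le_mul (this.trans (add_le_add (mul_le_mul_of_nonneg_left m1 (by norm_num))
        (mul_le_mul_of_nonneg_left m1 (by norm_num))))
        (pow_le_pow_left₀ (by positivity) r1 2) (by positivity) (by positivity)).trans ?_
      nlinarith [mul_nonneg K0.le t0, mul_nonneg X0 t0, mul_nonneg C2 t0]

end Vale.Agent.P144DV
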