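import Vale.Agent.P144DV.Ker
import Vale.Agent.P144P.Two

/-!
Pairs of separated energies.
-/

namespace Vale.Agent.P144DV

open Finset Vale.Agent.P144 Vale.Agent.P144DC
open Vale.Agent.P144.AL (Pf cenK Pf_cons sumE Pf_congr)
open Vale.Agent.P144Z (zd)
open Vale.Agent.P144S.F (lb sub_lb mem_lb)

theorem pf_nil {α : Type*} (K : α → α → ℝ) : Pf K [] = 1 := by rw [Pf]

theorem pf_app {α : Type*} {K : α → α → ℝ} (l l' : List α) (h : ∀ x ∈ l, ∀ y ∈ l', K x y = 0) :
    Pf K (l ++ l') = Pf K l * Pf K l' := by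
  induction hn : l.length using Nat.strong_induction_on generalizing l with
  | _ n ih =>
    cases l with
    | nil => rw [pf_nil, one_mul, List.nil_append]
    | cons c l =>
      rw [List.cons_append, Pf_cons, Pf_cons, AL.sumE_append, AL.sumE_eq, AL.sumE_eq, AL.sumE_eq,
        sum_eq_zero (s := univ (α := Fin l'.length)) fun j _ => by
          rw [h c (by simp) l'[j] (List.getElem_mem _), zero_mul, mul_zero], mul_zero, add_zero,
        sum_mul]
      refine sum_congr rfl fun j _ => ?_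
      rw [ih _ (by rw [← hn, List.length_eraseIdx, if_pos j.2, List.length_cons]; omega) _
        (fun x hx => h x (List.mem_cons_of_mem _ (List.mem_of_mem_eraseIdx hx))) rfl]
      ring

/-- The centred kernel. -/
noncomputable def cK {m : ℕ} (K : Fin m × Bool → Fin m × Bool → ℝ) (u : Fin m → ℝ)
    (x y : Fin m × Bool) : ℝ := K x y - if x.1 = y.1 then u x.1 else 0

theorem pf_cen {m : ℕ} (K : Fin m × Bool → Fin m × Bool → ℝ) (u : Fin m → ℝ) {ks : List (Fin m)}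
    (h : ks.Nodup) : Pf (cenK K (fun k => (k, false)) (fun k => (k, true)) u ks) (lb ks) =
      Pf (cK K u) (lb ks) := by
  refine Pf_congr _ fun ⟨k, b⟩ ⟨l, b'⟩ a => ?_
  have c := mem_lb (a.subset (List.mem_cons_self ..))
  rw [cenK, cK, ← List.sum_toFinset _ h]
  rcases sub_lb h a with e | ⟨e1, e2, e3⟩
  · rw [if_neg e]
    exact congrArg _ (sum_eq_zero fun i _ => if_neg fun c => e (by rw [c.1, c.2]))
  · simp only at e1 e2 e3 c
    subst e1 e2 e3
    simp [c]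

theorem avg {ι : Type*} {s : Finset ι} {w f : ι → ℝ} {t e : ℝ} (w0 : ∀ i, 0 ≤ w i)
    (w1 : ∑ i ∈ s, w i = 1) (h : ∀ i ∈ s, |f i - t| ≤ e) : |∑ i ∈ s, w i * f i - t| ≤ e := by
  have : ∑ i ∈ s, w i * f i - t = ∑ i ∈ s, w i * (f i - t) := by
    simp only [mul_sub, sum_sub_distrib, ← sum_mul, w1, one_mul]
  rw [this, ← one_mul e, ← w1, sum_mul]
  refine (abs_sum_le_sum_abs _ _).trans (sum_le_sum fun i hi => ?_)
  rw [abs_mul, abs_of_nonneg (w0 i)]
  exact mul_le_mul_of_nonneg_left (h i hi) (w0 i)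

theorem prod_near {a a' b b' A B δ : ℝ} (ha : |a| ≤ A) (hb : |b'| ≤ B) (h : |a - a'| ≤ δ)
    (h' : |b - b'| ≤ δ) : |a * b - a' * b'| ≤ (A + B) * δ := by
  rw [show a * b - a' * b' = a * (b - b') + b' * (a - a') by ring, add_mul]
  refine (abs_add_le _ _).trans ?_
  rw [abs_mul, abs_mul]
  exact add_le_add (mul_le_mul ha h' (abs_nonneg _) ((abs_nonneg _).trans ha))
    (mul_le_mul hb h (abs_nonneg _) ((abs_nonneg _).trans hb))

/-- The local value of the two-point function. -/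
def tt (τ : Lab → Lab → ℝ) (v : Site) (j : Fin 2) (v' : Site) (j' : Fin 2) : ℝ :=
  τ (v, j, false) (v', j', true) * τ (v, j, true) (v', j', false) -
    τ (v, j, false) (v', j', false) * τ (v, j, true) (v', j', true)

section

variable {C : ℝ} {τ : Lab → Lab → ℝ} {Λ : Finset Site} {m : ℕ} {y : Fin m → Site}
  {j : Fin m → Fin 2} {K : Fin m × Bool → Fin m × Bool → ℝ} (h : Sec C τ Λ y j K) {d r : ℕ}
  (hB : ∀ k v, zd v (y k) ≤ d → v ∈ Λ)

include h hB

theorem Sec.diag (hd : 400 ≤ d) (k : Fin m) :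
    |K (k, false) (k, true) - τ (y k, j k, false) (y k, j k, true)| ≤ C / d := by
  obtain ⟨γ, g, a⟩ := h.near k d hd (hB k)
  simpa only [g, one_mul] using a (k, false) true (by rw [zd_self]; omega)

theorem Sec.two (hC : 0 ≤ C) {u : Fin m → ℝ} (hr : 400 ≤ r)
    (hu : ∀ k, |u k - τ (y k, j k, false) (y k, j k, true)| ≤ C / d) {k l : Fin m}
    (h1 : r ≤ zd (y k) (y l)) (h2 : 200 * (zd (y k) (y l) + 1) ≤ d) :
    |Pf (cK K u) (lb [k, l]) - tt τ (y k) (j k) (y l) (j l)| ≤ 10 * C ^ 2 / (r * d) ∧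
      |tt τ (y k) (j k) (y l) (j l)| ≤ 8 * C ^ 2 / r ^ 2 := by
  have kl : k ≠ l := fun e => by rw [e, zd_self] at h1; omega
  have r0 : (0 : ℝ) < r := by exact_mod_cast (by omega)
  have rd : C / d ≤ C / r := div_le_div_of_nonneg_left hC r0 (by exact_mod_cast (by omega))
  have c0 : 0 ≤ C / d := by positivity
  obtain ⟨γ, g, a⟩ := h.near l d (by omega) (hB l)
  have g1 : |γ l * γ k| = 1 := by
    rw [← sq_eq_sq₀ (abs_nonneg _) zero_le_one, sq_abs]
    linear_combination γ k * γ k * g l + g k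
  have f : ∀ b b', |γ l * γ k * K (k, b) (l, b')| ≤ C / r := fun b b' => by
    rw [abs_mul, g1, one_mul]
    exact h.far _ _ r hr (fun v hv => hB k v (hv.trans (by omega)))
      (fun v hv => hB l v (hv.trans (by omega))) h1
  have t : ∀ b b', |τ (y k, j k, b) (y l, j l, b')| ≤ 2 * (C / r) := fun b b' => by
    have := abs_sub_abs_le_abs_sub (τ (y k, j k, b) (y l, j l, b')) (γ l * γ k * K (k, b) (l, b'))
    rw [abs_sub_comm] at this
    linarith [a (k, b) b' h2, f b b']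
  have p : ∀ b b', |K (k, false) (l, b) * K (k, true) (l, b') -
      τ (y k, j k, false) (y l, j l, b) * τ (y k, j k, true) (y l, j l, b')| ≤
        (C / r + 2 * (C / r)) * (C / d) := fun b b' => by
    refine le_trans (le_of_eq (congrArg (|· - _|) ?_))
      (prod_near (f false b) (t true b') (a (k, false) b h2) (a (k, true) b' h2))
    linear_combination (-(K (k, false) (l, b) * K (k, true) (l, b'))) *
      (γ k * γ k * g l + g k)
  have c : ∀ k, |K (k, false) (k, true) - u k| ≤ 2 * (C / d) := fun k => by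
    have := abs_sub_le (K (k, false) (k, true)) (τ (y k, j k, false) (y k, j k, true)) (u k)
    rw [abs_sub_comm (τ _ _)] at this
    linarith [h.diag hB (by omega) k, hu k]
  have q := mul_le_mul (c k) ((c l).trans (mul_le_mul_of_nonneg_left rd zero_le_two))
    (abs_nonneg _) (by positivity)
  have q1 := mul_le_mul (t false true) (t true false) (abs_nonneg _) (by positivity)
  have q2 := mul_le_mul (t false false) (t true true) (abs_nonneg _) (by positivity)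
  rw [← abs_mul] at q q1 q2
  have e1 : 10 * C ^ 2 / (r * d) = 10 * (C / r * (C / d)) := by ring
  have e2 : 8 * C ^ 2 / r ^ 2 = 8 * (C / r * (C / r)) := by ring
  rw [e1, e2, tt]
  simp only [lb, AL.flat, List.flatMap_cons, List.flatMap_nil, List.cons_append, List.nil_append,
    List.append_nil, Pf_cons, sumE, pf_nil, cK, if_true, if_neg kl, sub_zero, mul_one]
  have p1 := abs_le.1 (p true false)
  have p2 := abs_le.1 (p false true)
  rw [abs_le] at q q1 q2 ⊢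
  rw [abs_le]
  refine ⟨⟨?_, ?_⟩, ?_, ?_⟩ <;> linarith [q.1, q.2, q1.1, q1.2, q2.1, q2.2, p1.1, p1.2, p2.1, p2.2]

end

theorem pf_blk : ∃ N : ℝ, 0 ≤ N ∧ ∀ (Z : Fin 4 × Bool → Fin 4 × Bool → ℝ) (a e : ℝ), 0 < a →
    0 ≤ e → e ≤ 1 → (∀ x y, [x, y].Sublist (lb [0, 1, 2, 3]) → |Z x y| ≤ a) →
    (∀ x y, x.1 ≤ 1 → 2 ≤ y.1 → |Z x y| ≤ e * a) →
      |Pf Z (lb [0, 1, 2, 3]) - Pf Z (lb [0, 1]) * Pf Z (lb [2, 3])| ≤ N * (e * a ^ 4) := by
  obtain ⟨N, N1, h⟩ := P144P.Two.Pf_lip zero_le_one 8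
  refine ⟨N, by linarith, fun Z a e a0 e0 e1 h1 h2 => ?_⟩
  set Z' : Fin 4 × Bool → Fin 4 × Bool → ℝ := fun x y => if x.1 ≤ 1 ∧ 2 ≤ y.1 then 0 else Z x y
  have s := Real.mul_self_sqrt (inv_pos.2 a0).le
  have := (h (lb [0, 1, 2, 3]) (by simp [lb, AL.flat]) (fun x y => √a⁻¹ * √a⁻¹ * Z' x y)
    (fun x y => √a⁻¹ * √a⁻¹ * Z x y) e e0 e1 fun x y c => by
      rw [s, ← mul_sub, abs_mul, abs_mul, abs_of_pos (inv_pos.2 a0), inv_mul_le_iff₀ a0,
        inv_mul_le_iff₀ a0, mul_one, mul_comm]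
      simp only [Z']
      split_ifs with c'
      · simpa [a0.le] using h2 x y c'.1 c'.2
      · simpa [h1 x y c] using mul_nonneg e0 a0.le).2
  rw [AL.Pf_scale Z (fun _ => √a⁻¹) _ (by decide), AL.Pf_scale Z' (fun _ => √a⁻¹) _ (by decide),
    ← mul_sub, show lb [0, 1, 2, 3] = lb [0, 1] ++ lb [2, 3] from rfl, pf_app _ _ fun x hx y hy =>
      if_pos (by revert x y; decide), Pf_congr (K := Z') (K' := Z) _ fun x y c => if_neg (by
        have := c.subset (List.mem_cons_of_mem _ (List.mem_cons_self ..))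
        revert x y
        decide), Pf_congr (K := Z') (K' := Z) _ fun x y c => if_neg (by
        have := c.subset (List.mem_cons_self ..)
        revert x y
        decide)] at this
  have e4 : (List.map (fun _ => √a⁻¹) (lb [0, 1] ++ lb ([2, 3] : List (Fin 4)))).prod =
      (a ^ 4)⁻¹ := by
    simp only [lb, AL.flat, List.flatMap_cons, List.flatMap_nil, List.cons_append, List.nil_append,
      List.append_nil, List.map_cons, List.map_nil, List.prod_cons, List.prod_nil, ← inv_pow]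
    rw [show a⁻¹ ^ 4 = (√a⁻¹ * √a⁻¹) ^ 4 by rw [s]]
    ring
  rw [e4, abs_mul, abs_of_pos (by positivity), inv_mul_le_iff₀ (by positivity)] at this
  exact this.trans_eq (by ring)

/-- The correlation of centred energies. -/
noncomputable def cc (E : (Config → ℝ) → ℝ) {m : ℕ} (y : Fin m → Site) (j : Fin m → Fin 2)
    (ks : List (Fin m)) : ℝ :=
  E fun σ => (ks.map fun k => en (y k) (j k) σ - E (en (y k) (j k))).prod

/-- The mixture for centred energies. -/
def Cen (J : ℝ) (b : Option Config) (C : ℝ) (τ : Lab → Lab → ℝ) : Prop :=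
  ∀ (m : ℕ) (y : Fin m → Site) (j : Fin m → Fin 2) (Λ : Finset Site) (d : ℕ), 400 ≤ d →
    (∀ k l, k ≠ l → 400 ≤ zd (y k) (y l)) → (∀ k v, zd v (y k) ≤ d → v ∈ Λ) →
    ∃ (s : Finset (Finset Site)) (w : Finset Site → ℝ)
      (K : Finset Site → Fin m × Bool → Fin m × Bool → ℝ) (u : Fin m → ℝ), (∀ S, 0 ≤ w S) ∧
      ∑ S ∈ s, w S = 1 ∧ (∀ S ∈ s, Sec C τ Λ y j (K S)) ∧
      (∀ k, |u k - τ (y k, j k, false) (y k, j k, true)| ≤ C / d) ∧
      ∀ ks : List (Fin m), ks.Nodup →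
        cc (gb J b Λ) y j ks = ∑ S ∈ s, w S * Pf (cK (K S) u) (lb ks)

variable {J : ℝ} {b : Option Config}

theorem Mix.cen (h : Mix J b) : ∃ C τ, 0 ≤ C ∧ Cen J b C τ := by
  obtain ⟨C, τ, hC, h⟩ := h
  refine ⟨C, τ, hC, fun m y j Λ d hd h1 h2 => ?_⟩
  obtain ⟨s, w, K, w0, w1, k, e⟩ := h m y j Λ h1 fun k v hv => h2 k v (by omega)
  refine ⟨s, w, K, fun k => gb J b Λ (en (y k) (j k)), w0, w1, k, fun l => ?_, fun ks hk => ?_⟩
  · have := e [l] (List.nodup_singleton l) 0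
    simp only [pf_cen _ _ (List.nodup_singleton l)] at this
    simp only [lb, AL.flat, List.flatMap_cons, List.flatMap_nil, List.append_nil, Pf_cons, sumE,
      pf_nil, cK, Pi.zero_apply, ite_self, sub_zero, mul_one, List.map_cons, List.map_nil,
      List.prod_cons, List.prod_nil] at this
    exact (congrArg (|· - _|) this).trans_le (avg w0 w1 fun S hS => (k S hS).diag h2 hd l)
  · simp only [cc, e ks hk, pf_cen _ _ hk]

variable {C : ℝ} {τ : Lab → Lab → ℝ} {r d : ℕ} {Λ : Finset Site}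

theorem Cen.two (h : Cen J b C τ) (hC : 0 ≤ C) (hr : 400 ≤ r) {y : Fin 2 → Site}
    (j : Fin 2 → Fin 2) (h1 : r ≤ zd (y 0) (y 1)) (h2 : 200 * (zd (y 0) (y 1) + 1) ≤ d)
    (h3 : ∀ k v, zd v (y k) ≤ d → v ∈ Λ) :
    |cc (gb J b Λ) y j [0, 1] - tt τ (y 0) (j 0) (y 1) (j 1)| ≤ 10 * C ^ 2 / (r * d) := by
  obtain ⟨s, w, K, u, w0, w1, k, hu, e⟩ := h 2 y j Λ d (by omega) (fun k l a => by
    have := zd_symm (y 0) (y 1)
    fin_cases k <;> fin_cases l <;> simp at a ⊢ <;> omega) h3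
  rw [e _ (by decide)]
  exact avg w0 w1 fun S hS => ((k S hS).two h3 hC hr hu h1 h2).1

theorem sep4 {y : Fin 4 → Site} (h1 : r ≤ zd (y 0) (y 1)) (h3 : r ≤ zd (y 2) (y 3)) (hd : r ≤ d)
    (h5 : ∀ k l, k ≤ 1 → 2 ≤ l → d ≤ zd (y k) (y l)) (k l : Fin 4) (a : k ≠ l) :
    r ≤ zd (y k) (y l) := by
  wlog c : k < l generalizing k l
  · rw [zd_symm]
    exact this l k a.symm (by omega)
  by_cases c1 : k ≤ 1 ∧ 2 ≤ l
  · exact hd.trans (h5 k l c1.1 c1.2)
  obtain ⟨rfl, rfl⟩ | ⟨rfl, rfl⟩ : k = 0 ∧ l = 1 ∨ k = 2 ∧ l = 3 := by omega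
  exacts [h1, h3]

theorem Cen.four : ∃ N : ℝ, 0 ≤ N ∧ ∀ {J : ℝ} {b : Option Config} {C : ℝ} {τ : Lab → Lab → ℝ},
    Cen J b C τ → 0 ≤ C → ∀ {r d : ℕ}, 400 ≤ r →
    ∀ (y : Fin 4 → Site) (j : Fin 4 → Fin 2) (Λ : Finset Site), r ≤ zd (y 0) (y 1) →
      200 * (zd (y 0) (y 1) + 1) ≤ d → r ≤ zd (y 2) (y 3) → 200 * (zd (y 2) (y 3) + 1) ≤ d →
      (∀ k l, k ≤ 1 → 2 ≤ l → d ≤ zd (y k) (y l)) → (∀ k v, zd v (y k) ≤ d → v ∈ Λ) →
        |cc (gb J b Λ) y j [0, 1, 2, 3] - cc (gb J b Λ) y j [0, 1] * cc (gb J b Λ) y j [2, 3]| ≤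
          (N * (2 * C + 1) ^ 4 + 520 * C ^ 4) / (r ^ 3 * d) := by
  obtain ⟨N, N0, hN⟩ := pf_blk
  refine ⟨N, N0, fun {J b C τ} h hC r d hr y j Λ h1 h2 h3 h4 h5 h6 => ?_⟩
  have rd' : r ≤ d := by omega
  have d4 := hr.trans rd'
  have sp := sep4 h1 h3 rd' h5
  obtain ⟨s, w, K, u, w0, w1, k, hu, e⟩ := h 4 y j Λ d d4 (fun k l a => hr.trans (sp k l a)) h6
  have r0 : (0 : ℝ) < r := by exact_mod_cast (by omega)
  have rd : (r : ℝ) ≤ d := by exact_mod_cast rd'
  have d0 := r0.trans_le rd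
  have c1 : C / d ≤ C / r := div_le_div_of_nonneg_left hC r0 rd
  have c2 : 10 * C ^ 2 / (r * d) ≤ 10 * C ^ 2 / r ^ 2 :=
    div_le_div_of_nonneg_left (by positivity) (by positivity)
      (by rw [sq]; exact mul_le_mul_of_nonneg_left rd r0.le)
  obtain ⟨S₀, hS₀⟩ : s.Nonempty := nonempty_of_sum_ne_zero (w1.trans_ne one_ne_zero)
  have t1 := fun S hS => (k S hS).two h6 hC hr hu h1 h2
  have t2 := fun S hS => (k S hS).two h6 hC hr hu h3 h4
  generalize tt τ (y 0) (j 0) (y 1) (j 1) = T at t1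
  generalize tt τ (y 2) (j 2) (y 3) (j 3) = T' at t2
  have pr : ∀ {x x' : ℝ}, |x - T| ≤ 10 * C ^ 2 / (r * d) → |x' - T'| ≤ 10 * C ^ 2 / (r * d) →
      |x * x' - T * T'| ≤ 260 * C ^ 4 / (r ^ 3 * d) := fun {x x'} a a' => by
    refine (prod_near (A := 10 * C ^ 2 / r ^ 2 + 8 * C ^ 2 / r ^ 2) ?_ (t2 _ hS₀).2 a a').trans_eq
      (by ring)
    linarith [abs_sub_abs_le_abs_sub x T, (t1 _ hS₀).2]
  have q1 := pr (avg w0 w1 fun S hS => (t1 S hS).1) (avg w0 w1 fun S hS => (t2 S hS).1)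
  have q2 := avg (f := fun S => Pf (cK (K S) u) (lb [0, 1, 2, 3])) w0 w1 fun S hS =>
    (abs_sub_le _ (Pf (cK (K S) u) (lb [0, 1]) * Pf (cK (K S) u) (lb [2, 3])) _).trans
      (add_le_add (hN _ ((2 * C + 1) / r) (r / d) (by positivity) (by positivity)
        ((div_le_one d0).2 rd) (fun x x' a => ?_) fun x x' a a' => ?_) (pr (t1 S hS).1 (t2 S hS).1))
  · rw [← e _ (by decide), ← e _ (by decide), abs_sub_comm] at q1
    rw [← e _ (by decide)] at q2
    refine ((abs_sub_le _ _ _).trans (add_le_add q2 q1)).trans_eq ?_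
    field_simp
    ring
  · have c3 : 0 < 1 / (r : ℝ) := by positivity
    have c4 : 0 ≤ C / r := by positivity
    rw [add_div, mul_div_assoc, cK]
    rcases sub_lb (by decide) a with c | ⟨e1, e2, e3⟩
    · rw [if_neg c, sub_zero]
      linarith [(k S hS).far x x' r hr (fun v hv => h6 x.1 v (hv.trans rd'))
        (fun v hv => h6 x'.1 v (hv.trans rd')) (sp _ _ c)]
    · obtain ⟨l, b⟩ := x
      obtain ⟨l', b'⟩ := x'
      simp only at e1 e2 e3
      subst e1 e2 e3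
      have := abs_sub_le (K S (l, false) (l, true)) (τ (y l, j l, false) (y l, j l, true)) (u l)
      rw [abs_sub_comm (τ _ _)] at this
      rw [if_pos rfl]
      linarith [(k S hS).diag h6 d4 l, hu l]
  · rw [cK, if_neg (by omega), sub_zero]
    refine ((k S hS).far x x' d d4 (h6 _) (h6 _) (h5 _ _ a a')).trans ?_
    rw [div_mul_div_comm, mul_comm (d : ℝ), mul_div_mul_left _ _ r0.ne']
    exact div_le_div_of_nonneg_right (by linarith) d0.le

end Vale.Agent.P144DV
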